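import Vale.Agent.P203.MathlibUsed

namespace Vale.Agent.P203

open CoxeterSystem

variable {S : Type} (M : CoxeterMatrix S)

/-- The braid relators `(s t s ...) (t s t ...)⁻¹`, both words alternating of length `M s t`,
for `M s t ≠ 0` (in Mathlib the entry `0` of a Coxeter matrix stands for infinity). -/
def braidRelators : Set (FreeGroup S) :=
  {r | ∃ s t : S, M s t ≠ 0 ∧
    r = ((alternatingWord s t (M s t)).map FreeGroup.of).prod *
      (((alternatingWord t s (M s t)).map FreeGroup.of).prod)⁻¹}

/-- The Artin group of the Coxeter matrix `M`. -/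
abbrev ArtinGroup : Type := PresentedGroup (braidRelators M)

/-- The standard generator `σ_s` of the Artin group. -/
def artinGen (s : S) : ArtinGroup M := PresentedGroup.of s

/-- `T` is spherical: the subgroup `W_T` of the Coxeter group generated by `T` is finite. -/
def Spherical (T : Finset S) : Prop :=
  Finite (Subgroup.closure (M.simple '' (T : Set S)))

/-- The length function of the Coxeter group. -/
noncomputable def len (w : M.Group) : ℕ := M.toCoxeterSystem.length w

/-- For spherical `T` and `s ∈ T`, the finite set `W_T^{T ∖ s}` of elements `w` of `W_T` such that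
`ℓ(w t) > ℓ(w)` for all `t ∈ T ∖ {s}` (the shortest representatives of the cosets
`w W_{T ∖ s}` in `W_T`). -/
def minReps (T : Finset S) (s : S) : Set M.Group :=
  {w | w ∈ Subgroup.closure (M.simple '' (T : Set S)) ∧
    ∀ t ∈ T, t ≠ s → len M w < len M (w * M.simple t)}

/-- A reduced word of `w`. -/
noncomputable def redWord (w : M.Group) : List S :=
  (M.toCoxeterSystem.exists_isReduced w).choose

/-- For a map `γ` from `S` to a group, the product of `γ` along a reduced word of `w`.
For `γ = artinGen M` this is the canonical positive lift of `w` to the Artin group, for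
`γ = M.simple` it is `w` itself. -/
noncomputable def lift {G : Type} [Group G] (γ : S → G) (w : M.Group) : G :=
  ((redWord M w).map γ).prod

/-- The `n`-cells of the Salvetti complex (the `(n-1)`-simplices of the nerve):
spherical subsets of size `n`. -/
@[ext] structure Cell (n : ℕ) where
  /-- the spherical subset -/
  T : Finset S
  spherical : Spherical M T
  card_eq : T.card = n

variable {M}

theorem Spherical.subset {T T' : Finset S} (h : Spherical M T) (hT : T' ⊆ T) :
    Spherical M T' := by
  unfold Spherical at *
  exact Finite.Set.subset _ (Subgroup.closure_mono (Set.image_mono (by exact_mod_cast hT)))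

section

variable [DecidableEq S]

/-- The facet `T ∖ {s}` of a cell `T`. -/
def Cell.face {n : ℕ} (c : Cell M (n + 1)) (s : S) (hs : s ∈ c.T) : Cell M n :=
  ⟨c.T.erase s, c.spherical.subset (Finset.erase_subset _ _), by
    rw [Finset.card_erase_of_mem hs, c.card_eq]; rfl⟩

end

section

variable [LinearOrder S]

/-- The sign `(-1)^{#{t ∈ T : t < s}}`. -/
def Cell.sgn {n : ℕ} (c : Cell M n) (s : S) : ℤ := (-1) ^ (c.T.filter (· < s)).card

variable (M)

/-- The `n`-th module of the cellular chain complex with coefficients in `ℤ[G]`: the free left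
`ℤ[G]`-module on the symbols `e_T`, `T` spherical of size `n`. -/
abbrev Chain (G : Type) [Group G] (n : ℕ) : Type := Cell M n →₀ MonoidAlgebra ℤ G

/-- The boundary map of the Salvetti complex,
`∂ e_T = ∑_{s ∈ T} ± ∑_{w ∈ W_T^{T ∖ s}} (-1)^{ℓ(w)} γ(w) e_{T ∖ s}`. -/
noncomputable def bdry {G : Type} [Group G] (γ : S → G) (n : ℕ) :
    Chain M G (n + 1) →ₗ[MonoidAlgebra ℤ G] Chain M G n :=
  Finsupp.linearCombination (MonoidAlgebra ℤ G) fun c : Cell M (n + 1) =>
    ∑ s : {s // s ∈ c.T}, ∑ᶠ w ∈ minReps M c.T s.1,
      Finsupp.single (c.face s.1 s.2)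
        (MonoidAlgebra.single (lift M γ w) (c.sgn s.1 * (-1) ^ (len M w)))

/-- The simplicial boundary map of the (augmented) nerve of `M`. -/
noncomputable def nerveBdry (n : ℕ) : (Cell M (n + 1) →₀ ℤ) →ₗ[ℤ] (Cell M n →₀ ℤ) :=
  Finsupp.linearCombination ℤ fun c : Cell M (n + 1) =>
    ∑ s : {s // s ∈ c.T}, Finsupp.single (c.face s.1 s.2) (c.sgn s.1)

end

end Vale.Agent.P203
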